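import Vale.Agent.P124.MathlibUsed

namespace Vale.Agent.P124

/-- `f` is a Lipschitz isomorphism of normed spaces: a bijection, Lipschitz in both
directions. -/
def IsLipIso {X Y : Type*} [NormedAddCommGroup X] [NormedAddCommGroup Y] (f : X → Y) : Prop :=
  Function.Bijective f ∧ ∃ c C : ℝ, 0 < c ∧
    ∀ x x' : X, c * ‖x - x'‖ ≤ ‖f x - f x'‖ ∧ ‖f x - f x'‖ ≤ C * ‖x - x'‖

/-- Lipschitz isomorphic metric spaces. -/
def LipEquiv (A B : Type*) [MetricSpace A] [MetricSpace B] : Prop :=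
  ∃ f : A → B, Function.Bijective f ∧ ∃ c C : ℝ, 0 < c ∧
    ∀ a a' : A, c * dist a a' ≤ dist (f a) (f a') ∧ dist (f a) (f a') ≤ C * dist a a'

/-- There is a positively homogeneous, norm preserving Lipschitz isomorphism. -/
def RadialEquiv (X Y : Type*) [NormedAddCommGroup X] [NormedSpace ℝ X]
    [NormedAddCommGroup Y] [NormedSpace ℝ Y] : Prop :=
  ∃ f : X → Y, IsLipIso f ∧ (∀ t : ℝ, 0 ≤ t → ∀ x, f (t • x) = t • f x) ∧ ∀ x, ‖f x‖ = ‖x‖

end Vale.Agent.P124
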